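import Vale.Agent.P232.Full.Answer
import Vale.Agent.P232.Full.LemmaB

/-!
# P232: the isoperimetric profile of the cubic three-torus and all minimisers
-/

namespace Vale.Agent.Results.P232.CubicTorusProfile

open MeasureTheory Set Vale.Agent.P232

/-- For every volume the profile is the least perimeter of a ball, a tube or a slab, it is attained, and
the minimisers are exactly the translates of these regions and their complements, up to null sets. -/
theorem result :
    (∀ V ∈ Ioo (0 : ℝ) 1, isoProfile V = ENNReal.ofReal (ballTubeSlab V)) ∧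
    (∀ V ∈ Ioo (0 : ℝ) 1, ∃ E : Set (Fin 3 → ℝ), HasVolume E V ∧ perimeter E = isoProfile V) ∧
    (∀ V ∈ Ioo (0 : ℝ) 1, ∀ E : Set (Fin 3 → ℝ), HasVolume E V →
      (perimeter E = isoProfile V ↔ ∃ (I : Finset (Fin 3)) (r : ℝ) (a : Fin 3 → ℝ),
        IsModel (min V (1 - V)) I r ∧
          ((∀ᵐ x, x ∈ E ↔ x - a ∈ model I r) ∨ ∀ᵐ x, x ∈ E ↔ x - a ∉ model I r))) :=
  answer_of strictB

end Vale.Agent.Results.P232.CubicTorusProfile
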